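import Mathlib
import Vale.Agent.P011.H439.Syl

/-!
Openness of coprimality for monic polynomials with given lower coefficients (resultants).
-/

namespace Vale.Agent.P011.H640

open Polynomial Filter Topology
open Vale.Agent.P011.H439 (Pc sc)

section alg

variable {K : Type*} [Field K]

theorem degree_low {m : ℕ} (c : Fin m → K) :
    (∑ i, C (c i) * X ^ (i : ℕ)).degree < (m : WithBot ℕ) :=
  degree_sum_fin_lt c

theorem monic_Pc {m : ℕ} (c : Fin m → K) : (Pc c).Monic := monic_X_pow_add (degree_low c)

theorem natDegree_Pc {m : ℕ} (c : Fin m → K) : (Pc c).natDegree = m := by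
  unfold Pc
  rw [natDegree_add_eq_left_of_degree_lt, natDegree_X_pow]
  rw [degree_X_pow]
  exact degree_low c

theorem coeff_Pc {m : ℕ} (c : Fin m → K) (n : ℕ) :
    (Pc c).coeff n = if h : n < m then c ⟨n, h⟩ else if n = m then 1 else 0 := by
  unfold Pc
  rw [coeff_add, coeff_X_pow, finsetSum_coeff]
  simp only [coeff_C_mul_X_pow]
  by_cases h : n < m
  · rw [dif_pos h, if_neg (by omega), zero_add, Finset.sum_eq_single ⟨n, h⟩]
    · simp
    · intro i _ hi
      rw [if_neg]
      intro hc
      exact hi (Fin.ext (by simpa using hc.symm))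
    · intro hn
      exact absurd (Finset.mem_univ _) hn
  · rw [dif_neg h, Finset.sum_eq_zero, add_zero]
    intro i _
    rw [if_neg]
    intro hc
    have := i.2
    omega

end alg

section top

variable {K : Type*} [Field K] [TopologicalSpace K] [IsTopologicalRing K]

omit [IsTopologicalRing K] in
theorem continuous_coeff {m : ℕ} (n : ℕ) : Continuous fun c : Fin m → K => (Pc c).coeff n := by
  simp only [coeff_Pc]
  by_cases h : n < m
  · simp only [dif_pos h]
    exact continuous_apply _
  · simp only [dif_neg h]
    exact continuous_const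

/-- Coprimality is open. -/
theorem coprime_open [T1Space K] {m m' : ℕ} {c : Fin m → K} {d : Fin m' → K}
    (h : IsCoprime (Pc c) (Pc d)) :
    ∀ᶠ p : (Fin m → K) × (Fin m' → K) in 𝓝 (c, d), IsCoprime (Pc p.1) (Pc p.2) := by
  have key : ∀ (c : Fin m → K) (d : Fin m' → K),
      (resultant (Pc c) (Pc d) m m' ≠ 0 ↔ IsCoprime (Pc c) (Pc d)) := by
    intro c d
    rw [← isUnit_iff_ne_zero]
    have := isUnit_resultant_iff_isCoprime (f := Pc c) (g := Pc d) (monic_Pc c)
    rwa [natDegree_Pc, natDegree_Pc] at this
  have hcont : Continuous fun p : (Fin m → K) × (Fin m' → K) =>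
      resultant (Pc p.1) (Pc p.2) m m' := by
    unfold resultant
    refine Continuous.matrix_det (continuous_matrix fun i j => ?_)
    unfold sylvester
    simp only [Matrix.of_apply]
    induction j using Fin.addCases with
    | left j =>
      simp only [Fin.addCases_left]
      split_ifs
      · exact (continuous_coeff _).comp continuous_snd
      · exact continuous_const
    | right j =>
      simp only [Fin.addCases_right]
      split_ifs
      · exact (continuous_coeff _).comp continuous_fst
      · exact continuous_const
  filter_upwards [hcont.continuousAt.eventually_ne ((key c d).2 h)] with p hp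
  exact (key p.1 p.2).1 hp

/-- The composite form: coprimality of two continuous families stays near a point. -/
theorem coprime_near [T1Space K] {X : Type*} {l : Filter X} {m m' : ℕ}
    {f : X → Fin m → K} {g : X → Fin m' → K} {c : Fin m → K} {d : Fin m' → K}
    (hf : Tendsto f l (𝓝 c)) (hg : Tendsto g l (𝓝 d)) (h : IsCoprime (Pc c) (Pc d)) :
    ∀ᶠ x in l, IsCoprime (Pc (f x)) (Pc (g x)) :=
  (hf.prodMk_nhds hg).eventually (coprime_open h)

variable [StarRing K] [ContinuousStar K]

omit [IsTopologicalRing K] in
theorem continuous_sc {m : ℕ} : Continuous (sc : (Fin m → K) → Fin m → K) :=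
  continuous_pi fun i => (continuous_apply i).star

/-- Coprimality with the conjugate polynomial is open. -/
theorem cop_near [T1Space K] {m : ℕ} {c0 : Fin m → K} (h : IsCoprime (Pc c0) (Pc (sc c0))) :
    ∀ᶠ c in 𝓝 c0, IsCoprime (Pc c) (Pc (sc c)) :=
  coprime_near tendsto_id (continuous_sc.tendsto c0) h

/-- The same along a continuous family. -/
theorem cop_near' [T1Space K] {X : Type*} {l : Filter X} {m : ℕ} {f : X → Fin m → K}
    {c0 : Fin m → K} (hf : Tendsto f l (𝓝 c0)) (h : IsCoprime (Pc c0) (Pc (sc c0))) :
    ∀ᶠ x in l, IsCoprime (Pc (f x)) (Pc (sc (f x))) :=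
  hf.eventually (cop_near h)

end top

end Vale.Agent.P011.H640
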